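import Vale.Agent.P099.Refl

open MeasureTheory Set
open scoped Real ENNReal

namespace Vale.Agent.P099

theorem volume_Q_lt_top (T : Triangle) : volume T.Q < ∞ := by
  have hb : Bornology.IsBounded (convexHull ℝ ({T.A, T.B, T.C} : Set ℂ)) :=
    isBounded_convexHull.mpr (Set.Finite.isBounded (by simp))
  exact (hb.subset interior_subset).measure_lt_top

theorem volume_univ_dir : (volume (univ : Set Dir)) = ENNReal.ofReal (2 * π) :=
  AddCircle.measure_univ _

theorem null_of_mu (T : Triangle) {S : Set (ℂ × Dir)} (h : T.μ S = 0) :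
    ((volume.restrict T.Q).prod (volume : Measure Dir)) S = 0 := by
  unfold Triangle.μ at h
  rw [Measure.smul_apply, smul_eq_mul, mul_eq_zero] at h
  rcases h with h | h
  · exfalso
    rw [ENNReal.inv_eq_zero] at h
    have h1 := volume_Q_lt_top T
    have h2 : volume (univ : Set Dir) < ∞ := by rw [volume_univ_dir]; exact ENNReal.ofReal_lt_top
    exact (ENNReal.mul_lt_top h1 h2).ne h
  · exact h

open Triangle in
theorem ae_refl (T : Triangle) {P P' R : ℂ} (hside : T.IsSide P P')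
    (h : AffineIndependent ℝ ![P, P', R]) (hQ : T.Q = interior (convexHull ℝ {P, P', R}))
    (D : Set Dir) (hinv : T.Invariant (T.Q ×ˢ D)) :
    ∀ᵐ θ ∂(volume : Measure Dir), sig P P' θ ∈ D → θ ∈ D := by
  obtain ⟨t₀, V, ht₀, hV, hfwd, hbwd⟩ := one_bounce T hside h hQ
  set f : Dir → ℝ := fun θ => ((basisOf h).coord 2).linear (vec θ) with hf
  set Bad : Set Dir := {θ | sig P P' θ ∈ D ∧ θ ∉ D} with hBad
  have hVpos : ∀ k, (volume.restrict T.Q) (V k) ≠ 0 := by
    intro k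
    rw [Measure.restrict_apply (hV k).1.measurableSet, inter_eq_left.mpr (hV k).2.2]
    exact ((hV k).1.measure_pos volume (hV k).2.1).ne'
  have hneg : ∀ k : ℕ, volume (Bad ∩ {θ | f θ < -(1 / (k + 1 : ℝ))}) = 0 := by
    intro k
    have hsub : V k ×ˢ (Bad ∩ {θ | f θ < -(1 / (k + 1 : ℝ))}) ⊆
        symmDiff (T.pre t₀ (T.Q ×ˢ D)) (T.Q ×ˢ D) := by
      rintro ⟨x, θ⟩ ⟨hx, ⟨hθ1, hθ2⟩, hθ3⟩
      obtain ⟨y, hy, hF⟩ := hfwd k θ (sig P P' θ) x (specular_sig P P' θ) hx hθ3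
      rw [Set.mem_symmDiff]
      left
      refine ⟨⟨(y, sig P P' θ), ⟨hy, hθ1⟩, Or.inl ⟨ht₀.le, hF⟩⟩, ?_⟩
      intro hmem
      exact hθ2 hmem.2
    have h0 := measure_mono_null hsub (null_of_mu T (hinv t₀))
    rw [Measure.prod_prod, mul_eq_zero] at h0
    exact h0.resolve_left (hVpos k)
  have hpos : ∀ k : ℕ, volume (Bad ∩ {θ | (1 / (k + 1 : ℝ)) < f θ}) = 0 := by
    intro k
    have hsub : V k ×ˢ (Bad ∩ {θ | (1 / (k + 1 : ℝ)) < f θ}) ⊆
        symmDiff (T.pre (-t₀) (T.Q ×ˢ D)) (T.Q ×ˢ D) := by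
      rintro ⟨x, θ⟩ ⟨hx, ⟨hθ1, hθ2⟩, hθ3⟩
      have hsp : Specular P P' (vec (sig P P' θ)) (vec θ) := by
        have := specular_sig P P' (sig P P' θ)
        rwa [sig_sig] at this
      obtain ⟨y, hy, hF⟩ := hbwd k θ (sig P P' θ) x hsp hx hθ3
      rw [Set.mem_symmDiff]
      left
      refine ⟨⟨(y, sig P P' θ), ⟨hy, hθ1⟩, Or.inr ⟨by linarith, by simpa using hF⟩⟩, ?_⟩
      intro hmem
      exact hθ2 hmem.2
    have h0 := measure_mono_null hsub (null_of_mu T (hinv (-t₀)))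
    rw [Measure.prod_prod, mul_eq_zero] at h0
    exact h0.resolve_left (hVpos k)
  have hcover : Bad ⊆ {θ | f θ = 0} ∪ (⋃ k : ℕ, Bad ∩ {θ | f θ < -(1 / (k + 1 : ℝ))}) ∪
      (⋃ k : ℕ, Bad ∩ {θ | (1 / (k + 1 : ℝ)) < f θ}) := by
    intro θ hθ
    rcases lt_trichotomy (f θ) 0 with hlt | heq | hgt
    · left; right
      obtain ⟨k, hk⟩ := exists_nat_one_div_lt (show 0 < - f θ by linarith)
      exact mem_iUnion.mpr ⟨k, hθ, by show f θ < _; linarith⟩
    · left; left; exact heq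
    · right
      obtain ⟨k, hk⟩ := exists_nat_one_div_lt hgt
      exact mem_iUnion.mpr ⟨k, hθ, hk⟩
  have hnull : volume Bad = 0 := by
    apply measure_mono_null hcover
    rw [measure_union_null_iff, measure_union_null_iff]
    exact ⟨⟨zero_set_null h, measure_iUnion_null hneg⟩, measure_iUnion_null hpos⟩
  rw [ae_iff]
  convert hnull using 2
  ext θ
  simp [hBad]

end Vale.Agent.P099
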