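import Mathlib

open MeasureTheory Set
open scoped Real

namespace Vale.Agent.P099

/-- Directions: angles modulo `2π`. -/
abbrev Dir : Type := AddCircle (2 * π)

instance factTwoPiPos : Fact (0 < 2 * π) := ⟨Real.two_pi_pos⟩

/-- The unit vector `cos θ + i sin θ` of a direction `θ`. -/
noncomputable def vec (θ : Dir) : ℂ := (AddCircle.toCircle θ : ℂ)

/-- A nondegenerate triangle in the Euclidean plane `ℂ`. -/
structure Triangle where
  A : ℂ
  B : ℂ
  C : ℂ
  nondeg : AffineIndependent ℝ ![A, B, C]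

namespace Triangle

/-- The open triangle `Q`. -/
def Q (T : Triangle) : Set ℂ := interior (convexHull ℝ {T.A, T.B, T.C})

/-- `P P'` are the endpoints of one of the three sides. -/
def IsSide (T : Triangle) (P P' : ℂ) : Prop :=
  (P = T.A ∧ P' = T.B) ∨ (P = T.B ∧ P' = T.C) ∨ (P = T.C ∧ P' = T.A)

/-- All three angles are rational multiples of `π`. -/
def Rational (T : Triangle) : Prop :=
  (∃ q : ℚ, EuclideanGeometry.angle T.B T.A T.C = q * π) ∧
  (∃ q : ℚ, EuclideanGeometry.angle T.C T.B T.A = q * π) ∧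
  (∃ q : ℚ, EuclideanGeometry.angle T.A T.C T.B = q * π)

/-- Specular reflection at the line through `P, P'`: tangential component kept,
normal component reversed. -/
def Specular (P P' v v' : ℂ) : Prop :=
  inner ℝ v' (P' - P) = inner ℝ v (P' - P) ∧
  inner ℝ v' (Complex.I * (P' - P)) = - inner ℝ v (Complex.I * (P' - P))

/-- `T.Fwd t z w`: the billiard trajectory of the phase point `z` reaches the phase point `w`
after time `t ≥ 0`, moving at unit speed on straight lines inside `Q` and being reflected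
specularly at finitely many points of the open sides. -/
inductive Fwd (T : Triangle) : ℝ → ℂ × Dir → ℂ × Dir → Prop
  | free (x : ℂ) (θ : Dir) (t : ℝ) : 0 ≤ t → x ∈ T.Q → x + t • vec θ ∈ T.Q →
      Fwd T t (x, θ) (x + t • vec θ, θ)
  | bounce (x : ℂ) (θ θ' : Dir) (s s' t : ℝ) (w : ℂ × Dir) (P P' : ℂ) :
      x ∈ T.Q → 0 < s → 0 < s' → T.IsSide P P' → x + s • vec θ ∈ openSegment ℝ P P' →
      Specular P P' (vec θ) (vec θ') →
      Fwd T t (x + s • vec θ + s' • vec θ', θ') w → Fwd T (s + s' + t) (x, θ) w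

/-- The billiard flow as a relation: `Φ_t z = w`. -/
def Flow (T : Triangle) (t : ℝ) (z w : ℂ × Dir) : Prop :=
  (0 ≤ t ∧ T.Fwd t z w) ∨ (t ≤ 0 ∧ T.Fwd (-t) w z)

/-- The preimage `Φ_t⁻¹ S`. -/
def pre (T : Triangle) (t : ℝ) (S : Set (ℂ × Dir)) : Set (ℂ × Dir) :=
  {z | ∃ w ∈ S, T.Flow t z w}

/-- The invariant probability measure `dA dθ / (2π Area Q)` on `Q × S¹`. -/
noncomputable def μ (T : Triangle) : Measure (ℂ × Dir) :=
  (volume T.Q * volume (univ : Set Dir))⁻¹ • ((volume.restrict T.Q).prod volume)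

/-- `S` is invariant modulo null sets under the billiard flow. -/
def Invariant (T : Triangle) (S : Set (ℂ × Dir)) : Prop :=
  ∀ t : ℝ, T.μ (symmDiff (T.pre t S) S) = 0

end Triangle

end Vale.Agent.P099
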