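import Vale.Agent.P099.Defs

open MeasureTheory Set
open scoped Real

namespace Vale.Agent.P099

theorem norm_vec (θ : Dir) : ‖vec θ‖ = 1 := Circle.norm_coe _

/-- affine basis from three affinely independent points of the plane -/
noncomputable def basisOf {P P' R : ℂ} (h : AffineIndependent ℝ ![P, P', R]) :
    AffineBasis (Fin 3) ℝ ℂ :=
  ⟨![P, P', R], h, by
    rw [h.affineSpan_eq_top_iff_card_eq_finrank_add_one]
    simp [Complex.finrank_real_complex]⟩

theorem interior_eq {P P' R : ℂ} (h : AffineIndependent ℝ ![P, P', R]) :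
    interior (convexHull ℝ {P, P', R}) = {x | ∀ i, 0 < (basisOf h).coord i x} := by
  have hr : range (basisOf h) = {P, P', R} := by
    show range ![P, P', R] = _
    ext x
    simp [eq_comm]
    tauto
  have := (basisOf h).interior_convexHull
  rwa [hr] at this

theorem coord_comb {P P' R : ℂ} (h : AffineIndependent ℝ ![P, P', R])
    {a b c : ℝ} (hs : a + b + c = 1) (i : Fin 3) :
    (basisOf h).coord i (a • P + b • P' + c • R) = ![a, b, c] i := by
  have hw : (Finset.univ : Finset (Fin 3)).sum ![a, b, c] = 1 := by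
    simp [Fin.sum_univ_three, hs]
  have hcomb : (Finset.univ : Finset (Fin 3)).affineCombination ℝ (basisOf h) ![a, b, c]
      = a • P + b • P' + c • R := by
    rw [Finset.affineCombination_eq_linear_combination _ _ _ hw]
    simp [Fin.sum_univ_three]
    rfl
  rw [← hcomb, (basisOf h).coord_apply_combination_of_mem (Finset.mem_univ i) hw]

theorem eq_comb {P P' R : ℂ} (h : AffineIndependent ℝ ![P, P', R]) (x : ℂ) :
    x = (basisOf h).coord 0 x • P + (basisOf h).coord 1 x • P' + (basisOf h).coord 2 x • R := by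
  have := (basisOf h).linear_combination_coord_eq_self x
  rw [Fin.sum_univ_three] at this
  exact this.symm

theorem sum_coord {P P' R : ℂ} (h : AffineIndependent ℝ ![P, P', R]) (x : ℂ) :
    (basisOf h).coord 0 x + (basisOf h).coord 1 x + (basisOf h).coord 2 x = 1 := by
  have := (basisOf h).sum_coord_apply_eq_one x
  rwa [Fin.sum_univ_three] at this

theorem coord_add {P P' R : ℂ} (h : AffineIndependent ℝ ![P, P', R]) (i : Fin 3) (x e : ℂ)
    (s : ℝ) : (basisOf h).coord i (x + s • e)
      = (basisOf h).coord i x + s * ((basisOf h).coord i).linear e := by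
  have := ((basisOf h).coord i).map_vadd x (s • e)
  simp only [vadd_eq_add, map_smul, smul_eq_mul] at this
  rw [add_comm x, this, add_comm]

theorem exists_bound {P P' R : ℂ} (h : AffineIndependent ℝ ![P, P', R]) :
    ∃ L : ℝ, 0 < L ∧ ∀ (i : Fin 3) (e : ℂ), ‖e‖ = 1 → |((basisOf h).coord i).linear e| ≤ L := by
  let g : Fin 3 → (ℂ →L[ℝ] ℝ) := fun i => LinearMap.toContinuousLinearMap ((basisOf h).coord i).linear
  refine ⟨1 + ‖g 0‖ + ‖g 1‖ + ‖g 2‖, by positivity, ?_⟩
  intro i e he
  have h1 : |((basisOf h).coord i).linear e| ≤ ‖g i‖ := by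
    have := (g i).le_opNorm e
    rw [he, mul_one] at this
    simpa [g] using this
  have h0 := norm_nonneg (g 0)
  have h1' := norm_nonneg (g 1)
  have h2 := norm_nonneg (g 2)
  fin_cases i <;> simp at h1 ⊢ <;> linarith


/-- decomposition of a plane vector along `u` and `i u` -/
theorem decomp (u z : ℂ) :
    ((‖u‖ ^ 2 : ℝ) : ℂ) * z = (inner ℝ z u : ℝ) • u + (inner ℝ z (Complex.I * u) : ℝ) • (Complex.I * u) := by
  rw [← Complex.normSq_eq_norm_sq]
  apply Complex.ext <;> simp [Complex.inner, Complex.normSq_apply] <;> ring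

theorem lin_eq {u : ℂ} (hu : u ≠ 0) (f : ℂ →ₗ[ℝ] ℝ) (hf : f u = 0) (z : ℂ) :
    f z = (inner ℝ z (Complex.I * u) : ℝ) * (f (Complex.I * u) / ‖u‖ ^ 2) := by
  have h := congrArg f (decomp u z)
  have h2 : ((‖u‖ ^ 2 : ℝ) : ℂ) * z = (‖u‖ ^ 2 : ℝ) • z := by
    simp
  rw [h2, map_smul, map_add, map_smul, map_smul, hf] at h
  simp only [smul_eq_mul, mul_zero, zero_add] at h
  have hn : (‖u‖ ^ 2 : ℝ) ≠ 0 := by positivity
  field_simp
  linarith


open Triangle in
theorem lin_specular {P P' R : ℂ} (h : AffineIndependent ℝ ![P, P', R]) {v v' : ℂ}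
    (hs : Specular P P' v v') :
    ((basisOf h).coord 2).linear v' = - ((basisOf h).coord 2).linear v := by
  have hne : P' - P ≠ 0 := by
    intro h0
    have : P' = P := sub_eq_zero.mp h0
    have h01 := h.injective.ne (show (0 : Fin 3) ≠ 1 by decide)
    simp at h01
    exact h01 this.symm
  have hf : ((basisOf h).coord 2).linear (P' - P) = 0 := by
    have h1 := ((basisOf h).coord 2).linearMap_vsub P' P
    simp only [vsub_eq_sub] at h1
    rw [h1]
    have hP : (basisOf h).coord 2 P = 0 := by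
      have := coord_comb h (show (1 : ℝ) + 0 + 0 = 1 by norm_num) 2
      simpa using this
    have hP' : (basisOf h).coord 2 P' = 0 := by
      have := coord_comb h (show (0 : ℝ) + 1 + 0 = 1 by norm_num) 2
      simpa using this
    rw [hP, hP']; simp
  rw [lin_eq hne _ hf v', lin_eq hne _ hf v, hs.2]
  ring


theorem mem_openSegment_of_coord {P P' R : ℂ} (h : AffineIndependent ℝ ![P, P', R]) {q : ℂ}
    (h0 : 0 < (basisOf h).coord 0 q) (h1 : 0 < (basisOf h).coord 1 q)
    (h2 : (basisOf h).coord 2 q = 0) : q ∈ openSegment ℝ P P' := by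
  refine ⟨(basisOf h).coord 0 q, (basisOf h).coord 1 q, h0, h1, ?_, ?_⟩
  · have := sum_coord h q
    rw [h2] at this
    linarith
  · have := eq_comb h q
    rw [h2] at this
    simpa using this.symm

open Triangle in
theorem one_bounce (T : Triangle) {P P' R : ℂ} (hside : T.IsSide P P')
    (h : AffineIndependent ℝ ![P, P', R]) (hQ : T.Q = interior (convexHull ℝ {P, P', R})) :
    ∃ (t₀ : ℝ) (V : ℕ → Set ℂ), 0 < t₀ ∧ (∀ k, IsOpen (V k) ∧ (V k).Nonempty ∧ V k ⊆ T.Q) ∧
      (∀ (k : ℕ) (θ θ' : Dir) (x : ℂ), Specular P P' (vec θ) (vec θ') → x ∈ V k →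
        ((basisOf h).coord 2).linear (vec θ) < -(1 / (k + 1 : ℝ)) →
          ∃ y ∈ T.Q, T.Fwd t₀ (x, θ) (y, θ')) ∧
      (∀ (k : ℕ) (θ θ' : Dir) (x : ℂ), Specular P P' (vec θ') (vec θ) → x ∈ V k →
        (1 / (k + 1 : ℝ)) < ((basisOf h).coord 2).linear (vec θ) →
          ∃ y ∈ T.Q, T.Fwd t₀ (y, θ') (x, θ)) := by
  obtain ⟨L, hL, hbound⟩ := exists_bound h
  set l : Fin 3 → ℂ → ℝ := fun i x => (basisOf h).coord i x with hl
  set g : Fin 3 → ℂ → ℝ := fun i e => ((basisOf h).coord i).linear e with hg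
  have hadd : ∀ i x e (s : ℝ), l i (x + s • e) = l i x + s * g i e := fun i x e s =>
    coord_add h i x e s
  have hmemQ : ∀ x, (0 < l 0 x ∧ 0 < l 1 x ∧ 0 < l 2 x) → x ∈ T.Q := by
    intro x hx
    rw [hQ, interior_eq h]
    intro i
    fin_cases i
    · exact hx.1
    · exact hx.2.1
    · exact hx.2.2
  have hb : ∀ i θ, |g i (vec θ)| ≤ L := fun i θ => hbound i _ (norm_vec θ)
  set t₀ : ℝ := 1 / (8 * L) with ht₀
  have ht₀pos : 0 < t₀ := by positivity
  have ht₀L : t₀ * L = 1 / 8 := by
    rw [ht₀]; field_simp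
  refine ⟨t₀, fun k => {x | 0 < l 2 x ∧ l 2 x < t₀ / (k + 1) ∧ 1 / 4 < l 0 x ∧ 1 / 4 < l 1 x},
    ht₀pos, ?_, ?_, ?_⟩
  · intro k
    have hc : ∀ i, Continuous (l i) := fun i =>
      ((basisOf h).coord i).continuous_of_finiteDimensional
    refine ⟨?_, ?_, ?_⟩
    · exact ((isOpen_lt continuous_const (hc 2)).inter
        ((isOpen_lt (hc 2) continuous_const).inter
          ((isOpen_lt continuous_const (hc 0)).inter (isOpen_lt continuous_const (hc 1)))))
    · have hk : (0 : ℝ) < t₀ / (k + 1) := by positivity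
      set ε : ℝ := min (t₀ / (k + 1)) (1 / 4) / 2 with hε
      have hε0 : 0 < ε := by
        rw [hε]; have := lt_min hk (show (0 : ℝ) < 1 / 4 by norm_num); linarith
      have hε1 : ε < t₀ / (k + 1) := by
        have := min_le_left (t₀ / (k + 1)) (1 / 4 : ℝ)
        rw [hε]; have := lt_min hk (show (0 : ℝ) < 1 / 4 by norm_num); linarith
      have hε2 : ε < 1 / 4 := by
        have := min_le_right (t₀ / (k + 1)) (1 / 4 : ℝ)
        rw [hε]; have := lt_min hk (show (0 : ℝ) < 1 / 4 by norm_num); linarith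
      have hsum : (1 - ε) / 2 + (1 - ε) / 2 + ε = 1 := by ring
      refine ⟨((1 - ε) / 2) • P + ((1 - ε) / 2) • P' + ε • R, ?_⟩
      have c0 := coord_comb h hsum 0
      have c1 := coord_comb h hsum 1
      have c2 := coord_comb h hsum 2
      simp only [Matrix.cons_val_zero, Matrix.cons_val_one, Matrix.cons_val] at c0 c1 c2
      simp only [mem_ofPred_eq, hl, c0, c1, c2]
      refine ⟨hε0, hε1, by linarith, by linarith⟩
    · intro x hx
      exact hmemQ x ⟨by linarith [hx.2.2.1], by linarith [hx.2.2.2], hx.1⟩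
  · intro k θ θ' x hspec hx hc
    obtain ⟨hx2, hx2', hx0, hx1⟩ := hx
    set c := g 2 (vec θ) with hcdef
    have hk : (0 : ℝ) < (k : ℝ) + 1 := by positivity
    have hcneg : c < 0 := lt_of_lt_of_le hc (by
      have : (0 : ℝ) ≤ 1 / ((k : ℝ) + 1) := by positivity
      linarith)
    have hc' : g 2 (vec θ') = -c := lin_specular h hspec
    set s : ℝ := l 2 x / (-c) with hs
    have hspos : 0 < s := div_pos hx2 (by linarith)
    have hslt : s < t₀ := by
      rw [hs, div_lt_iff₀ (by linarith)]
      have h1 : t₀ / (k + 1) = t₀ * (1 / (k + 1)) := by ring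
      have h2 : t₀ * (1 / ((k : ℝ) + 1)) < t₀ * (-c) := by
        apply mul_lt_mul_of_pos_left _ ht₀pos
        linarith
      linarith
    have hcne : c ≠ 0 := hcneg.ne
    have hsc : s * c = - l 2 x := by
      rw [hs]; field_simp
    set s' : ℝ := t₀ - s with hs'
    have hs'pos : 0 < s' := by linarith
    set q : ℂ := x + s • vec θ with hq
    set y : ℂ := q + s' • vec θ' with hy
    have key : ∀ (i : Fin 3) (r : ℝ) (φ : Dir), 0 ≤ r → - (r * L) ≤ r * g i (vec φ) := by
      intro i r φ hr
      have := (abs_le.mp (hb i φ)).1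
      nlinarith
    have hq2 : l 2 q = 0 := by rw [hq, hadd]; linarith
    have hq0 : 1 / 8 < l 0 q := by
      rw [hq, hadd]
      have := key 0 s θ hspos.le
      nlinarith
    have hq1 : 1 / 8 < l 1 q := by
      rw [hq, hadd]
      have := key 1 s θ hspos.le
      nlinarith
    have hy2 : 0 < l 2 y := by
      rw [hy, hadd, hq2, hc']
      nlinarith
    have hy0 : 0 < l 0 y := by
      rw [hy, hadd, hq, hadd]
      have h1 := key 0 s θ hspos.le
      have h2 := key 0 s' θ' hs'pos.le
      have : s * L + s' * L = 1 / 8 := by rw [← ht₀L, hs']; ring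
      linarith
    have hy1 : 0 < l 1 y := by
      rw [hy, hadd, hq, hadd]
      have h1 := key 1 s θ hspos.le
      have h2 := key 1 s' θ' hs'pos.le
      have : s * L + s' * L = 1 / 8 := by rw [← ht₀L, hs']; ring
      linarith
    have hyQ : y ∈ T.Q := hmemQ y ⟨hy0, hy1, hy2⟩
    have hxQ : x ∈ T.Q := hmemQ x ⟨by linarith, by linarith, hx2⟩
    refine ⟨y, hyQ, ?_⟩
    have hfree : T.Fwd 0 (y, θ') (y, θ') := by
      have := Fwd.free (T := T) y θ' 0 le_rfl hyQ (by simpa using hyQ)
      simpa using this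
    have := Fwd.bounce (T := T) x θ θ' s s' 0 (y, θ') P P' hxQ hspos hs'pos hside
      (mem_openSegment_of_coord h (by linarith) (by linarith) hq2) hspec hfree
    have ht : s + s' + 0 = t₀ := by rw [hs']; ring
    rwa [ht] at this
  · intro k θ θ' x hspec hx hc
    obtain ⟨hx2, hx2', hx0, hx1⟩ := hx
    set c := g 2 (vec θ) with hcdef
    have hk : (0 : ℝ) < (k : ℝ) + 1 := by positivity
    have hcpos : 0 < c := lt_of_le_of_lt (by positivity) hc
    have hc' : g 2 (vec θ') = -c := by
      have := lin_specular h hspec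
      have h2 : c = - g 2 (vec θ') := this
      linarith
    set s' : ℝ := l 2 x / c with hs'
    have hs'pos : 0 < s' := div_pos hx2 hcpos
    have hs'lt : s' < t₀ := by
      rw [hs', div_lt_iff₀ hcpos]
      have h1 : t₀ / (k + 1) = t₀ * (1 / (k + 1)) := by ring
      have h2 : t₀ * (1 / ((k : ℝ) + 1)) < t₀ * c := by
        apply mul_lt_mul_of_pos_left _ ht₀pos
        exact hc
      linarith
    have hcne : c ≠ 0 := hcpos.ne'
    have hsc : s' * c = l 2 x := by
      rw [hs']; field_simp
    set s : ℝ := t₀ - s' with hs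
    have hspos : 0 < s := by linarith
    set q : ℂ := x + (-s') • vec θ with hq
    set y : ℂ := q + (-s) • vec θ' with hy
    have key : ∀ (i : Fin 3) (r : ℝ) (φ : Dir), 0 ≤ r → - (r * L) ≤ (-r) * g i (vec φ) := by
      intro i r φ hr
      have := (abs_le.mp (hb i φ)).2
      nlinarith
    have hq2 : l 2 q = 0 := by rw [hq, hadd]; linarith
    have hq0 : 1 / 8 < l 0 q := by
      rw [hq, hadd]
      have := key 0 s' θ hs'pos.le
      nlinarith
    have hq1 : 1 / 8 < l 1 q := by
      rw [hq, hadd]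
      have := key 1 s' θ hs'pos.le
      nlinarith
    have hy2 : 0 < l 2 y := by
      rw [hy, hadd, hq2, hc']
      nlinarith
    have hy0 : 0 < l 0 y := by
      rw [hy, hadd, hq, hadd]
      have h1 := key 0 s' θ hs'pos.le
      have h2 := key 0 s θ' hspos.le
      have : s * L + s' * L = 1 / 8 := by rw [← ht₀L, hs]; ring
      linarith
    have hy1 : 0 < l 1 y := by
      rw [hy, hadd, hq, hadd]
      have h1 := key 1 s' θ hs'pos.le
      have h2 := key 1 s θ' hspos.le
      have : s * L + s' * L = 1 / 8 := by rw [← ht₀L, hs]; ring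
      linarith
    have hyQ : y ∈ T.Q := hmemQ y ⟨hy0, hy1, hy2⟩
    have hxQ : x ∈ T.Q := hmemQ x ⟨by linarith, by linarith, hx2⟩
    refine ⟨y, hyQ, ?_⟩
    have hfree : T.Fwd 0 (x, θ) (x, θ) := by
      have := Fwd.free (T := T) x θ 0 le_rfl hxQ (by simpa using hxQ)
      simpa using this
    have e1 : y + s • vec θ' = q := by
      rw [hy]; simp [add_assoc]
    have e2 : y + s • vec θ' + s' • vec θ = x := by
      rw [e1, hq]; simp [add_assoc]
    have := Fwd.bounce (T := T) y θ' θ s s' 0 (x, θ) P P' hyQ hspos hs'pos hside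
      (by rw [e1]; exact mem_openSegment_of_coord h (by linarith) (by linarith) hq2) hspec
      (by rw [e2]; exact hfree)
    have ht : s + s' + 0 = t₀ := by rw [hs]; ring
    rwa [ht] at this

end Vale.Agent.P099
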