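import Vale.Agent.P099.Rot

open MeasureTheory Set
open scoped Real ENNReal

namespace Vale.Agent.P099

theorem nondeg_rot1 (T : Triangle) : AffineIndependent ℝ ![T.B, T.C, T.A] := by
  have := T.nondeg.comp_embedding (finRotate 3).toEmbedding
  convert this using 1
  ext i; fin_cases i <;> rfl

theorem nondeg_rot2 (T : Triangle) : AffineIndependent ℝ ![T.C, T.A, T.B] := by
  have := (nondeg_rot1 T).comp_embedding (finRotate 3).toEmbedding
  convert this using 1
  ext i; fin_cases i <;> rfl

theorem Q_rot1 (T : Triangle) : T.Q = interior (convexHull ℝ {T.B, T.C, T.A}) := by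
  unfold Triangle.Q
  congr 2
  ext x; simp; tauto

theorem Q_rot2 (T : Triangle) : T.Q = interior (convexHull ℝ {T.C, T.A, T.B}) := by
  unfold Triangle.Q
  congr 2
  ext x; simp; tauto

theorem ne_AB (T : Triangle) : T.A ≠ T.B := by
  have h01 := T.nondeg.injective.ne (show (0 : Fin 3) ≠ 1 by decide)
  simpa using h01

theorem ne_BC (T : Triangle) : T.B ≠ T.C := by
  have h01 := T.nondeg.injective.ne (show (1 : Fin 3) ≠ 2 by decide)
  simpa using h01

theorem ne_AC (T : Triangle) : T.A ≠ T.C := by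
  have h01 := T.nondeg.injective.ne (show (0 : Fin 3) ≠ 2 by decide)
  simpa using h01

theorem volume_Q_ne_zero (T : Triangle) : volume T.Q ≠ 0 := by
  obtain ⟨t₀, V, _, hV, _, _⟩ := one_bounce T (Or.inl ⟨rfl, rfl⟩) T.nondeg rfl
  have hopen : IsOpen T.Q := isOpen_interior
  exact (hopen.measure_pos volume ((hV 0).2.1.mono (hV 0).2.2)).ne'

theorem dir_trivial (T : Triangle) (hT : ¬ T.Rational) (D : Set Dir) (hD : MeasurableSet D)
    (hinv : T.Invariant (T.Q ×ˢ D)) :
    D =ᵐ[volume] (∅ : Set Dir) ∨ D =ᵐ[volume] (univ : Set Dir) := by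
  have hAB := ae_refl_iff T (Or.inl ⟨rfl, rfl⟩) T.nondeg rfl D hinv
  have hBC := ae_refl_iff T (Or.inr (Or.inl ⟨rfl, rfl⟩)) (nondeg_rot1 T) (Q_rot1 T) D hinv
  have hCA := ae_refl_iff T (Or.inr (Or.inr ⟨rfl, rfl⟩)) (nondeg_rot2 T) (Q_rot2 T) D hinv
  by_contra hcon
  apply hT
  refine ⟨?_, ?_, ?_⟩
  · have := rat_of_order (T.B - T.A) (T.C - T.A) (sub_ne_zero.mpr (ne_AB T).symm)
      (sub_ne_zero.mpr (ne_AC T).symm) (by
        intro ho
        apply hcon
        apply trivial_of_two_sides D hD T.A T.B T.C T.A hAB hCA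
        simpa [sideDir] using ho)
    simpa [EuclideanGeometry.angle] using this
  · have := rat_of_order (T.C - T.B) (T.A - T.B) (sub_ne_zero.mpr (ne_BC T).symm)
      (sub_ne_zero.mpr (ne_AB T)) (by
        intro ho
        apply hcon
        apply trivial_of_two_sides D hD T.B T.C T.A T.B hBC hAB
        simpa [sideDir] using ho)
    simpa [EuclideanGeometry.angle] using this
  · have := rat_of_order (T.A - T.C) (T.B - T.C) (sub_ne_zero.mpr (ne_AC T))
      (sub_ne_zero.mpr (ne_BC T)) (by
        intro ho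
        apply hcon
        apply trivial_of_two_sides D hD T.C T.A T.B T.C hCA hBC
        simpa [sideDir] using ho)
    simpa [EuclideanGeometry.angle] using this

theorem mu_prod (T : Triangle) (D : Set Dir) :
    T.μ (T.Q ×ˢ D) = (volume T.Q * volume (univ : Set Dir))⁻¹ * (volume T.Q * volume D) := by
  unfold Triangle.μ
  rw [Measure.smul_apply, smul_eq_mul, Measure.prod_prod, Measure.restrict_apply_self]

theorem main (T : Triangle) (hT : ¬ T.Rational) (D : Set Dir) (hD : MeasurableSet D)
    (hinv : T.Invariant (T.Q ×ˢ D)) : T.μ (T.Q ×ˢ D) = 0 ∨ T.μ (T.Q ×ˢ D) = 1 := by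
  rcases dir_trivial T hT D hD hinv with h | h
  · left
    rw [mu_prod, measure_congr h]
    simp
  · right
    rw [mu_prod, measure_congr h]
    apply ENNReal.inv_mul_cancel
    · apply mul_ne_zero (volume_Q_ne_zero T)
      rw [volume_univ_dir]
      simp [Real.pi_pos]
    · apply ENNReal.mul_ne_top (volume_Q_lt_top T).ne
      rw [volume_univ_dir]
      exact ENNReal.ofReal_ne_top

end Vale.Agent.P099
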