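import Vale.Agent.P099.Geom

open MeasureTheory Set
open scoped Real

namespace Vale.Agent.P099

theorem nontrivial_dir : Nontrivial Dir := ⟨⟨((π:ℝ):Dir), 0, Real.Angle.pi_ne_zero⟩⟩

theorem nullSingleton_dir : NullSingletonClass (volume : Measure Dir) := by
  have := nontrivial_dir
  infer_instance

/-- direction of the oriented side `P P'` -/
noncomputable def sideDir (P P' : ℂ) : Dir := ((Complex.arg (P' - P) : ℝ) : Dir)

theorem vec_coe (x : ℝ) : vec (x : Dir) = Complex.exp (x * Complex.I) := by
  unfold vec
  rw [AddCircle.toCircle_apply_mk]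
  have : 2 * π / (2 * π) * x = x := by
    field_simp
  rw [this, Circle.coe_exp]

theorem vec_sideDir (P P' : ℂ) : (‖P' - P‖ : ℂ) * vec (sideDir P P') = P' - P := by
  rw [sideDir, vec_coe]
  exact Complex.norm_mul_exp_arg_mul_I _

theorem vec_add (a b : Dir) : vec (a + b) = vec a * vec b := by
  simp [vec, AddCircle.toCircle_add]

theorem vec_neg (a : Dir) : vec (-a) = (starRingEnd ℂ) (vec a) := by
  rw [vec, AddCircle.toCircle_neg, Circle.coe_inv_eq_conj]; rfl

theorem normSq_vec (a : Dir) : Complex.normSq (vec a) = 1 := by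
  simp [vec]

open Triangle in
theorem specular_aux (w v : ℂ) (r : ℝ) (hw : Complex.normSq w = 1) :
    Specular 0 ((r : ℂ) * w) v (w * w * (starRingEnd ℂ) v) := by
  rw [Complex.normSq_apply] at hw
  constructor
  · simp [Complex.inner]
    linear_combination (r * (v.re * w.re + v.im * w.im)) * hw
  · simp [Complex.inner]
    linear_combination (r * (v.re * w.im - v.im * w.re)) * hw


/-- reflection of directions at the side `P P'` -/
noncomputable def sig (P P' : ℂ) (θ : Dir) : Dir := sideDir P P' + sideDir P P' - θ

theorem sig_sig (P P' : ℂ) (θ : Dir) : sig P P' (sig P P' θ) = θ := by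
  simp [sig]

theorem measurePreserving_sig (P P' : ℂ) :
    MeasurePreserving (sig P P') (volume : Measure Dir) volume :=
  Measure.measurePreserving_sub_left _ _

open Triangle in
theorem specular_sig (P P' : ℂ) (θ : Dir) : Specular P P' (vec θ) (vec (sig P P' θ)) := by
  have h := specular_aux (vec (sideDir P P')) (vec θ) ‖P' - P‖ (normSq_vec _)
  rw [vec_sideDir] at h
  have e : vec (sig P P' θ) = vec (sideDir P P') * vec (sideDir P P') * (starRingEnd ℂ) (vec θ) := by
    rw [sig, sub_eq_add_neg, vec_add, vec_add, vec_neg]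
  rw [e]
  simpa [Specular] using h

theorem vec_injective : Function.Injective vec := by
  intro a b hab
  have : AddCircle.toCircle a = AddCircle.toCircle b := Circle.ext hab
  exact AddCircle.injective_toCircle (by positivity) this

theorem zero_set_null {P P' R : ℂ} (h : AffineIndependent ℝ ![P, P', R]) :
    (volume : Measure Dir) {θ | ((basisOf h).coord 2).linear (vec θ) = 0} = 0 := by
  have := nullSingleton_dir
  apply Set.Finite.measure_zero
  set u := P' - P with hu
  have hne : u ≠ 0 := by
    intro h0
    have : P' = P := sub_eq_zero.mp h0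
    have h01 := h.injective.ne (show (0 : Fin 3) ≠ 1 by decide)
    simp at h01
    exact h01 this.symm
  have hP : (basisOf h).coord 2 P = 0 := by
    have := coord_comb h (show (1 : ℝ) + 0 + 0 = 1 by norm_num) 2
    simpa using this
  have hP' : (basisOf h).coord 2 P' = 0 := by
    have := coord_comb h (show (0 : ℝ) + 1 + 0 = 1 by norm_num) 2
    simpa using this
  have hR : (basisOf h).coord 2 R = 1 := by
    have := coord_comb h (show (0 : ℝ) + 0 + 1 = 1 by norm_num) 2
    simpa using this
  have hf : ((basisOf h).coord 2).linear u = 0 := by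
    have h1 := ((basisOf h).coord 2).linearMap_vsub P' P
    simp only [vsub_eq_sub] at h1
    rw [hu, h1, hP, hP']; simp
  have hfR : ((basisOf h).coord 2).linear (R - P) = 1 := by
    have h1 := ((basisOf h).coord 2).linearMap_vsub R P
    simp only [vsub_eq_sub] at h1
    rw [h1, hP, hR]; simp
  have hκ : ((basisOf h).coord 2).linear (Complex.I * u) / ‖u‖ ^ 2 ≠ 0 := by
    intro h0
    have := lin_eq hne _ hf (R - P)
    rw [h0, mul_zero, hfR] at this
    exact one_ne_zero this
  have hsub : {θ : Dir | ((basisOf h).coord 2).linear (vec θ) = 0} ⊆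
      vec ⁻¹' {((1 / ‖u‖ : ℝ) : ℂ) * u, -(((1 / ‖u‖ : ℝ) : ℂ) * u)} := by
    intro θ hθ
    have h1 : ((basisOf h).coord 2).linear (vec θ) = 0 := hθ
    rw [lin_eq hne _ hf (vec θ)] at h1
    have h2 : (inner ℝ (vec θ) (Complex.I * u) : ℝ) = 0 := by
      rcases mul_eq_zero.mp h1 with h | h
      · exact h
      · exact absurd h hκ
    have h3 := decomp u (vec θ)
    rw [h2, zero_smul, add_zero] at h3
    set a : ℝ := inner ℝ (vec θ) u with ha
    have hn : (0 : ℝ) < ‖u‖ := norm_pos_iff.mpr hne
    have h4 : ‖u‖ ^ 2 = |a| * ‖u‖ := by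
      have := congrArg norm h3
      rw [norm_mul, norm_smul, norm_vec, mul_one] at this
      simpa using this
    have h5 : |a| = ‖u‖ := by
      have : ‖u‖ * ‖u‖ = |a| * ‖u‖ := by rw [← h4]; ring
      exact (mul_right_cancel₀ hn.ne' this).symm
    have hnC : (‖u‖ : ℂ) ≠ 0 := by exact_mod_cast hn.ne'
    have h6 : vec θ = ((a / ‖u‖ ^ 2 : ℝ) : ℂ) * u := by
      have : ((‖u‖ ^ 2 : ℝ) : ℂ) ≠ 0 := by
        push_cast; positivity
      apply mul_left_cancel₀ this
      rw [h3]
      push_cast
      rw [Complex.real_smul]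
      field_simp
    simp only [mem_preimage, mem_insert_iff, mem_singleton_iff]
    rcases abs_eq hn.le |>.mp h5 with h | h
    · left
      rw [h6, h]
      congr 2
      field_simp
    · right
      rw [h6, h, ← neg_mul, ← Complex.ofReal_neg]
      congr 2
      field_simp
  exact (Set.Finite.preimage vec_injective.injOn (by simp)).subset hsub

end Vale.Agent.P099
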