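import Vale.Agent.P099.AeRefl

open MeasureTheory Set
open scoped Real ENNReal

namespace Vale.Agent.P099

open Triangle in
theorem ae_refl_iff (T : Triangle) {P P' R : ℂ} (hside : T.IsSide P P')
    (h : AffineIndependent ℝ ![P, P', R]) (hQ : T.Q = interior (convexHull ℝ {P, P', R}))
    (D : Set Dir) (hinv : T.Invariant (T.Q ×ˢ D)) :
    ∀ᵐ θ ∂(volume : Measure Dir), sig P P' θ ∈ D ↔ θ ∈ D := by
  have h1 := ae_refl T hside h hQ D hinv
  have h2 := (measurePreserving_sig P P').quasiMeasurePreserving.ae h1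
  filter_upwards [h1, h2] with θ a b
  rw [sig_sig] at b
  exact ⟨a, b⟩

theorem trivial_of_two_sides (D : Set Dir) (hD : MeasurableSet D) (P₁ P₁' P₂ P₂' : ℂ)
    (h1 : ∀ᵐ θ ∂(volume : Measure Dir), sig P₁ P₁' θ ∈ D ↔ θ ∈ D)
    (h2 : ∀ᵐ θ ∂(volume : Measure Dir), sig P₂ P₂' θ ∈ D ↔ θ ∈ D)
    (ho : addOrderOf (sideDir P₁ P₁' + sideDir P₁ P₁' - sideDir P₂ P₂' - sideDir P₂ P₂') = 0) :
    D =ᵐ[volume] (∅ : Set Dir) ∨ D =ᵐ[volume] (univ : Set Dir) := by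
  set a := sideDir P₁ P₁' + sideDir P₁ P₁' - sideDir P₂ P₂' - sideDir P₂ P₂' with ha
  have herg : Ergodic (· + a) (volume : Measure Dir) := AddCircle.ergodic_add_right.mpr ho
  apply herg.quasiErgodic.ae_empty_or_univ₀ hD.nullMeasurableSet
  have h3 := (measurePreserving_sig P₂ P₂').quasiMeasurePreserving.ae h1
  have : ∀ᵐ θ ∂(volume : Measure Dir), θ + a ∈ D ↔ θ ∈ D := by
    filter_upwards [h2, h3] with θ b c
    have e : sig P₁ P₁' (sig P₂ P₂' θ) = θ + a := by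
      simp only [sig, ha]; abel
    rw [e] at c
    exact c.trans b
  exact Filter.eventuallyEq_set.mpr this

theorem rat_of_order (x y : ℂ) (hx : x ≠ 0) (hy : y ≠ 0)
    (h : addOrderOf (((Complex.arg x : ℝ) : Dir) + ((Complex.arg x : ℝ) : Dir)
      - ((Complex.arg (-y) : ℝ) : Dir) - ((Complex.arg (-y) : ℝ) : Dir)) ≠ 0) :
    ∃ q : ℚ, InnerProductGeometry.angle x y = q * π := by
  set ψ := Complex.arg (x / y) with hψ
  have e1 : ((ψ : ℝ) : Dir) = ((Complex.arg x : ℝ) : Dir) - ((Complex.arg y : ℝ) : Dir) :=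
    Complex.arg_div_coe_angle hx hy
  have e2 : ((Complex.arg (-y) : ℝ) : Dir) = ((Complex.arg y : ℝ) : Dir) + ((π : ℝ) : Dir) :=
    Complex.arg_neg_coe_angle hy
  have e3 : ((π : ℝ) : Dir) + ((π : ℝ) : Dir) = 0 := by
    have := Real.Angle.coe_two_pi
    rw [two_mul] at this
    exact this
  have e4 : ((Complex.arg x : ℝ) : Dir) + ((Complex.arg x : ℝ) : Dir)
      - ((Complex.arg (-y) : ℝ) : Dir) - ((Complex.arg (-y) : ℝ) : Dir) = ((2 * ψ : ℝ) : Dir) := by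
    have : ((2 * ψ : ℝ) : Dir) = ((ψ : ℝ) : Dir) + ((ψ : ℝ) : Dir) := by
      rw [two_mul ψ, AddCircle.coe_add]
    rw [this, e1, e2]
    have : ((Complex.arg x : ℝ) : Dir) + ((Complex.arg x : ℝ) : Dir)
      - (((Complex.arg y : ℝ) : Dir) + ((π : ℝ) : Dir)) - (((Complex.arg y : ℝ) : Dir) + ((π : ℝ) : Dir))
      = ((Complex.arg x : ℝ) : Dir) - ((Complex.arg y : ℝ) : Dir) + (((Complex.arg x : ℝ) : Dir) - ((Complex.arg y : ℝ) : Dir)) - (((π : ℝ) : Dir) + ((π : ℝ) : Dir)) := by abel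
    rw [this, e3, sub_zero]
  rw [e4] at h
  set n := addOrderOf ((2 * ψ : ℝ) : Dir) with hn
  have hnpos : 0 < n := Nat.pos_of_ne_zero h
  have h0 : n • ((2 * ψ : ℝ) : Dir) = 0 := addOrderOf_nsmul_eq_zero _
  have h1 : ((n * (2 * ψ) : ℝ) : Dir) = 0 := by
    rw [← h0, ← nsmul_eq_mul]; rfl
  rw [AddCircle.coe_eq_zero_iff] at h1
  obtain ⟨m, hm⟩ := h1
  rw [Complex.angle_eq_abs_arg hx hy, ← hψ]
  refine ⟨|(m : ℚ) / n|, ?_⟩
  have hn' : (n : ℝ) ≠ 0 := by exact_mod_cast hnpos.ne'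
  have : ψ = ((m : ℝ) / n) * π := by
    simp only [zsmul_eq_mul] at hm
    field_simp
    linarith
  rw [this, abs_mul, abs_of_pos Real.pi_pos]
  push_cast
  rfl

end Vale.Agent.P099
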